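import Vale.Agent.P252.Graph

namespace Vale.Agent.Results.P252.BernsteinFailsTenUp

open scoped ContDiff
open Vale.Agent.P252

/-- The affine Bernstein property fails in every dimension `n ≥ 10`. -/
theorem result : ∀ n : ℕ, 10 ≤ n →
    ∃ u : (Fin n → ℝ) → ℝ, ContDiff ℝ ∞ u ∧ (∀ x, (hess u x).PosDef) ∧
      IsAffineMaximal u ∧ ¬ IsQuadraticPoly u :=
  fun _ hn => exists_counterexample hn

end Vale.Agent.Results.P252.BernsteinFailsTenUp
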