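import Vale.Agent.P252.Rigidity.Three.Main
import Vale.Agent.P252.Rigidity.General.Main
import Vale.Agent.P252.Rigidity.General.Cert4.Main

namespace Vale.Agent.Results.P252.BernsteinHoldsThreeFour

open scoped ContDiff Matrix
open Vale.Agent.P252

/-- The affine Bernstein property holds in dimensions three and four: a Euclidean complete affine
maximal graph over a convex domain of `ℝⁿ`, `n = 3, 4`, is an elliptic paraboloid; in particular so
is an entire one. -/
theorem result (n : ℕ) (hn : n = 3 ∨ n = 4) :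
    (∀ (Ω : Set (Fin n → ℝ)) (u : (Fin n → ℝ) → ℝ), IsOpen Ω → Ω.Nonempty → Convex ℝ Ω →
      ContDiffOn ℝ ∞ u Ω → (∀ x ∈ Ω, (hess u x).PosDef) →
      (∀ x ∈ Ω, ∑ i, ∑ j, (hess u x).det * (hess u x)⁻¹ i j * hess (affineW u) x i j = 0) →
      Rigidity.GraphComplete Ω u →
      Ω = Set.univ ∧ ∃ (A : Matrix (Fin n) (Fin n) ℝ) (b : Fin n → ℝ) (c : ℝ), A.PosDef ∧
        ∀ x, u x = (1 / 2) * (x ⬝ᵥ (A *ᵥ x)) + b ⬝ᵥ x + c) ∧
    (∀ u : (Fin n → ℝ) → ℝ, ContDiff ℝ ∞ u → (∀ x, (hess u x).PosDef) → IsAffineMaximal u →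
      ∃ (A : Matrix (Fin n) (Fin n) ℝ) (b : Fin n → ℝ) (c : ℝ), A.PosDef ∧
        ∀ x, u x = (1 / 2) * (x ⬝ᵥ (A *ᵥ x)) + b ⬝ᵥ x + c) := by
  refine General.bernstein_both ?_
  rcases hn with rfl | rfl
  · exact fun {W u} => Three.rigidity_three_complete_of_fluxBound
      (Three.fluxBound_of_cert Three.certIneq)
  · exact General.rigid_four_of_cert General.Cert4.certIneq4 (by norm_num [General.Cert4.P4])
      (by norm_num [General.Cert4.P4])

end Vale.Agent.Results.P252.BernsteinHoldsThreeFour
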